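import Vale.Agent.Lib.P322D.Law

/-!
# P322: the Courtade-Kumar inequality in terms of Shannon entropies

`I(A;B) = H(A) + H(B) - H(A,B)` on an arbitrary probability space, identified with the sum
formula of the landed theorem.
-/

open MeasureTheory ProbabilityTheory

namespace P322Ent

open Vale.Agent.Results.P322.CourtadeKumar (pXZ prob mutualInfo h2)

theorem prob_nonneg {Ω : Type} [Fintype Ω] {p : Ω → ℝ} (hp : ∀ ω, 0 ≤ p ω) (S : Set Ω) :
    0 ≤ prob p S := by
  classical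
  unfold prob
  refine Finset.sum_nonneg fun ω _ => ?_
  split_ifs
  · exact hp ω
  · exact le_rfl

theorem prob_mono {Ω : Type} [Fintype Ω] {p : Ω → ℝ} (hp : ∀ ω, 0 ≤ p ω) {S T : Set Ω}
    (h : S ⊆ T) : prob p S ≤ prob p T := by
  classical
  unfold prob
  refine Finset.sum_le_sum fun ω _ => ?_
  by_cases h1 : ω ∈ S
  · rw [if_pos h1, if_pos (h h1)]
  · rw [if_neg h1]
    split_ifs
    · exact hp ω
    · exact le_rfl

theorem sum_prob_right {Ω α β : Type} [Fintype Ω] [Fintype β] (p : Ω → ℝ) (A : Ω → α) (B : Ω → β)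
    (a : α) : ∑ b, prob p {ω | A ω = a ∧ B ω = b} = prob p {ω | A ω = a} := by
  classical
  unfold prob
  rw [Finset.sum_comm]
  refine Finset.sum_congr rfl fun ω _ => ?_
  rw [Finset.sum_eq_single (B ω)]
  · simp only [Set.mem_ofPred_eq, and_true]
  · intro b _ hb
    refine if_neg ?_
    rintro ⟨-, h⟩
    exact hb h.symm
  · intro h
    exact absurd (Finset.mem_univ _) h

theorem sum_prob_left {Ω α β : Type} [Fintype Ω] [Fintype α] (p : Ω → ℝ) (A : Ω → α) (B : Ω → β)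
    (b : β) : ∑ a, prob p {ω | A ω = a ∧ B ω = b} = prob p {ω | B ω = b} := by
  classical
  unfold prob
  rw [Finset.sum_comm]
  refine Finset.sum_congr rfl fun ω _ => ?_
  rw [Finset.sum_eq_single (A ω)]
  · simp only [Set.mem_ofPred_eq, true_and]
  · intro a _ ha
    refine if_neg ?_
    rintro ⟨h, -⟩
    exact ha h.symm
  · intro h
    exact absurd (Finset.mem_univ _) h

/-- the sum formula as `H(A) + H(B) - H(A,B)` -/
theorem mutualInfo_eq {Ω α β : Type} [Fintype Ω] [Fintype α] [Fintype β] {p : Ω → ℝ}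
    (hp : ∀ ω, 0 ≤ p ω) (A : Ω → α) (B : Ω → β) :
    mutualInfo p A B =
      (-∑ a, prob p {ω | A ω = a} * Real.logb 2 (prob p {ω | A ω = a})) +
      (-∑ b, prob p {ω | B ω = b} * Real.logb 2 (prob p {ω | B ω = b})) -
      (-∑ c : α × β, prob p {ω | (A ω, B ω) = c} * Real.logb 2 (prob p {ω | (A ω, B ω) = c})) := by
  have h1 : ∀ a b, prob p {ω | A ω = a ∧ B ω = b} *
      Real.logb 2 (prob p {ω | A ω = a ∧ B ω = b} / (prob p {ω | A ω = a} * prob p {ω | B ω = b})) =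
      prob p {ω | A ω = a ∧ B ω = b} * Real.logb 2 (prob p {ω | A ω = a ∧ B ω = b}) -
      prob p {ω | A ω = a ∧ B ω = b} * Real.logb 2 (prob p {ω | A ω = a}) -
      prob p {ω | A ω = a ∧ B ω = b} * Real.logb 2 (prob p {ω | B ω = b}) := by
    intro a b
    by_cases h0 : prob p {ω | A ω = a ∧ B ω = b} = 0
    · rw [h0]
      ring
    have h2 : 0 < prob p {ω | A ω = a ∧ B ω = b} :=
      lt_of_le_of_ne (prob_nonneg hp _) (Ne.symm h0)
    have h3 : 0 < prob p {ω | A ω = a} := h2.trans_le (prob_mono hp fun ω h => h.1)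
    have h4 : 0 < prob p {ω | B ω = b} := h2.trans_le (prob_mono hp fun ω h => h.2)
    rw [Real.logb_div h2.ne' (mul_pos h3 h4).ne', Real.logb_mul h3.ne' h4.ne']
    ring
  have h5 : (∑ c : α × β, prob p {ω | (A ω, B ω) = c} *
      Real.logb 2 (prob p {ω | (A ω, B ω) = c})) =
      ∑ a, ∑ b, prob p {ω | A ω = a ∧ B ω = b} *
        Real.logb 2 (prob p {ω | A ω = a ∧ B ω = b}) := by
    rw [Fintype.sum_prod_type]
    refine Finset.sum_congr rfl fun a _ => Finset.sum_congr rfl fun b _ => ?_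
    have h6 : {ω | (A ω, B ω) = (a, b)} = {ω | A ω = a ∧ B ω = b} := by
      ext ω
      simp only [Set.mem_ofPred_eq, Prod.mk.injEq]
    rw [h6]
  have h7 : (∑ a, ∑ b, prob p {ω | A ω = a ∧ B ω = b} * Real.logb 2 (prob p {ω | A ω = a})) =
      ∑ a, prob p {ω | A ω = a} * Real.logb 2 (prob p {ω | A ω = a}) := by
    refine Finset.sum_congr rfl fun a _ => ?_
    rw [← Finset.sum_mul, sum_prob_right]
  have h8 : (∑ a, ∑ b, prob p {ω | A ω = a ∧ B ω = b} * Real.logb 2 (prob p {ω | B ω = b})) =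
      ∑ b, prob p {ω | B ω = b} * Real.logb 2 (prob p {ω | B ω = b}) := by
    rw [Finset.sum_comm]
    refine Finset.sum_congr rfl fun b _ => ?_
    rw [← Finset.sum_mul, sum_prob_left]
  unfold mutualInfo
  simp only [h1, Finset.sum_sub_distrib]
  rw [h5, h7, h8]
  ring

theorem pXZ_nonneg {n : ℕ} {ε : ℝ} (h0 : 0 ≤ ε) (h1 : ε ≤ 1)
    (w : (Fin n → ℤˣ) × (Fin n → ℤˣ)) : 0 ≤ pXZ n ε w := by
  unfold pXZ
  refine mul_nonneg (by positivity) (Finset.prod_nonneg fun i _ => ?_)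
  split_ifs
  · exact h0
  · linarith

/-- the joint law from: `X` uniform, `Z` independent of `X`, independent coordinates of `Z` -/
theorem law_point {Ω : Type*} [MeasurableSpace Ω] (P : Measure Ω) [IsProbabilityMeasure P] {n : ℕ}
    {ε : ℝ} {X Z : Ω → Fin n → ℤˣ} (hZ : Measurable Z)
    (hunif : ∀ x, P.real {ω | X ω = x} = 1 / 2 ^ n) (hXZ : IndepFun X Z P)
    (hind : iIndepFun (fun i ω => Z ω i) P)
    (hZ1 : ∀ i, P.real {ω | Z ω i = -1} = ε) (x z : Fin n → ℤˣ) :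
    P.real {ω | X ω = x ∧ Z ω = z} = pXZ n ε (x, z) := by
  have := P322Ch.msc_units
  have hu : ∀ a : ℤˣ, a = 1 ∨ a = -1 := Int.units_eq_one_or
  have hZi : ∀ i, Measurable fun ω => Z ω i := fun i => (measurable_pi_apply i).comp hZ
  have hcompl : ∀ i, P.real {ω | Z ω i = 1} = 1 - ε := by
    intro i
    have h3 : {ω | Z ω i = 1} = {ω | Z ω i = -1}ᶜ := by
      ext ω
      rcases hu (Z ω i) with h | h <;> simp [h]
    have h4 : MeasurableSet {ω | Z ω i = -1} := hZi i (measurableSet_singleton (-1 : ℤˣ))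
    rw [h3, probReal_compl_eq_one_sub h4, hZ1]
  have hx : MeasurableSet ({x} : Set (Fin n → ℤˣ)) := measurableSet_singleton x
  have hz : MeasurableSet ({z} : Set (Fin n → ℤˣ)) := measurableSet_singleton z
  have h1 := hXZ.measure_inter_preimage_eq_mul {x} {z} hx hz
  have h2 : P.real {ω | X ω = x ∧ Z ω = z} = P.real {ω | X ω = x} * P.real {ω | Z ω = z} := by
    unfold Measure.real
    rw [← ENNReal.toReal_mul]
    exact congrArg ENNReal.toReal h1
  have h5 := hind.measure_inter_preimage_eq_mul (S := Finset.univ)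
    (sets := fun i => {z i}) (fun i _ => measurableSet_singleton _)
  have h6 : (⋂ i ∈ Finset.univ, (fun ω => Z ω i) ⁻¹' {z i}) = {ω | Z ω = z} := by
    ext ω
    simp [funext_iff]
  rw [h6] at h5
  have h7 : P.real {ω | Z ω = z} = ∏ i, (if z i = -1 then ε else 1 - ε) := by
    unfold Measure.real
    rw [h5, ENNReal.toReal_prod]
    refine Finset.prod_congr rfl fun i _ => ?_
    change P.real {ω | Z ω i = z i} = _
    rcases hu (z i) with h | h
    · have h8 : ¬ (1 : ℤˣ) = -1 := by decide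
      rw [h, if_neg h8, hcompl]
    · rw [h, if_pos rfl, hZ1]
  rw [h2, hunif, h7]
  unfold pXZ
  rw [one_div, one_div, inv_pow]

theorem law {Ω : Type*} [MeasurableSpace Ω] (P : Measure Ω) [IsProbabilityMeasure P] {n : ℕ}
    {ε : ℝ} {X Z : Ω → Fin n → ℤˣ} (hX : Measurable X) (hZ : Measurable Z)
    (hunif : ∀ x, P.real {ω | X ω = x} = 1 / 2 ^ n) (hXZ : IndepFun X Z P)
    (hind : iIndepFun (fun i ω => Z ω i) P)
    (hZ1 : ∀ i, P.real {ω | Z ω i = -1} = ε) (S : Set ((Fin n → ℤˣ) × (Fin n → ℤˣ))) :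
    P.real {ω | (X ω, Z ω) ∈ S} = prob (pXZ n ε) S := by
  classical
  have := P322Ch.msc_units
  have hT : Measurable fun ω => (X ω, Z ω) := hX.prodMk hZ
  have h1 : {ω | (X ω, Z ω) ∈ S} =
      ⋃ w ∈ Finset.univ.filter (· ∈ S), {ω | X ω = w.1 ∧ Z ω = w.2} := by
    ext ω
    simp only [Set.mem_ofPred_eq, Finset.mem_filter, Finset.mem_univ, true_and, Set.mem_iUnion,
      exists_prop]
    constructor
    · intro h
      exact ⟨_, h, rfl, rfl⟩
    · rintro ⟨⟨x, z⟩, h, h2, h3⟩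
      have e1 : X ω = x := h2
      have e2 : Z ω = z := h3
      rw [e1, e2]
      exact h
  rw [h1, measureReal_biUnion_finset]
  · unfold prob
    rw [Finset.sum_filter]
    refine Finset.sum_congr rfl fun w _ => ?_
    split_ifs
    · exact law_point P hZ hunif hXZ hind hZ1 w.1 w.2
    · rfl
  · rintro ⟨x, z⟩ _ ⟨x', z'⟩ _ hne
    refine Set.disjoint_left.2 ?_
    rintro ω ⟨h2, h3⟩ ⟨h4, h5⟩
    apply hne
    exact Prod.ext (h2.symm.trans h4) (h3.symm.trans h5)
  · rintro ⟨x, z⟩ _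
    have e1 : {ω | X ω = x ∧ Z ω = z} = (fun ω => (X ω, Z ω)) ⁻¹' {(x, z)} := by
      ext ω
      simp
    rw [e1]
    exact hT (measurableSet_singleton _)

theorem key {Ω : Type*} [MeasurableSpace Ω] (P : Measure Ω) [IsProbabilityMeasure P] {n : ℕ}
    {ε : ℝ} (h0 : 0 ≤ ε) (h1 : ε ≤ 1) {X Z : Ω → Fin n → ℤˣ} (hX : Measurable X)
    (hZ : Measurable Z) (hunif : ∀ x, P.real {ω | X ω = x} = 1 / 2 ^ n) (hXZ : IndepFun X Z P)
    (hind : iIndepFun (fun i ω => Z ω i) P) (hZ1 : ∀ i, P.real {ω | Z ω i = -1} = ε)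
    {α β : Type} [Fintype α] [Fintype β] (A : (Fin n → ℤˣ) × (Fin n → ℤˣ) → α)
    (B : (Fin n → ℤˣ) × (Fin n → ℤˣ) → β) :
    (-∑ a, P.real {ω | A (X ω, Z ω) = a} * Real.logb 2 (P.real {ω | A (X ω, Z ω) = a})) +
      (-∑ b, P.real {ω | B (X ω, Z ω) = b} * Real.logb 2 (P.real {ω | B (X ω, Z ω) = b})) -
      (-∑ c : α × β, P.real {ω | (A (X ω, Z ω), B (X ω, Z ω)) = c} *
        Real.logb 2 (P.real {ω | (A (X ω, Z ω), B (X ω, Z ω)) = c})) =
    mutualInfo (pXZ n ε) A B := by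
  rw [mutualInfo_eq (pXZ_nonneg h0 h1)]
  have h2 : ∀ a, P.real {ω | A (X ω, Z ω) = a} = prob (pXZ n ε) {w | A w = a} := fun a =>
    law P hX hZ hunif hXZ hind hZ1 {w | A w = a}
  have h3 : ∀ b, P.real {ω | B (X ω, Z ω) = b} = prob (pXZ n ε) {w | B w = b} := fun b =>
    law P hX hZ hunif hXZ hind hZ1 {w | B w = b}
  have h4 : ∀ c : α × β, P.real {ω | (A (X ω, Z ω), B (X ω, Z ω)) = c} =
      prob (pXZ n ε) {w | (A w, B w) = c} := fun c =>
    law P hX hZ hunif hXZ hind hZ1 {w | (A w, B w) = c}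
  simp only [h2, h3, h4]

end P322Ent
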