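import Vale.Agent.Results.P322.CourtadeKumar

/-!
# P322: the Courtade-Kumar inequality for random variables on a probability space

The mutual information is the Kullback-Leibler divergence of Mathlib between the joint law and
the product of the marginal laws; this file identifies it with the sum formula of the landed
theorem.
-/

open MeasureTheory ProbabilityTheory InformationTheory
open scoped ENNReal

namespace P322Ch

open Vale.Agent.Results.P322.CourtadeKumar (pXZ prob mutualInfo h2)

theorem klDiv_fintype {α : Type} [Fintype α] [MeasurableSpace α] [MeasurableSingletonClass α]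
    (μ ν : Measure α) [IsProbabilityMeasure μ] [IsProbabilityMeasure ν] (hac : μ ≪ ν) :
    klDiv μ ν = ENNReal.ofReal (∑ a, μ.real {a} * Real.log (μ.real {a} / ν.real {a})) := by
  rw [klDiv_of_ac_of_integrable hac (Integrable.of_finite)]
  congr 1
  rw [probReal_univ, probReal_univ, add_sub_cancel_right, integral_fintype Integrable.of_finite]
  refine Finset.sum_congr rfl fun a _ => ?_
  rw [smul_eq_mul]
  by_cases h0 : μ {a} = 0
  · simp [Measure.real, h0]
  have hν : ν {a} ≠ 0 := fun h => h0 (hac h)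
  have h1 : μ.rnDeriv ν a * ν {a} = μ {a} := by
    have h2 : ν.withDensity (μ.rnDeriv ν) {a} = μ {a} := by
      rw [Measure.withDensity_rnDeriv_eq μ ν hac]
    rw [withDensity_apply _ (measurableSet_singleton a), lintegral_singleton] at h2
    exact h2
  congr 1
  unfold llr Measure.real
  rw [← h1, ENNReal.toReal_mul]
  congr 1
  rw [mul_div_assoc, div_self, mul_one]
  exact ENNReal.toReal_ne_zero.2 ⟨hν, measure_ne_top _ _⟩

theorem ac_pair {Ω : Type*} [MeasurableSpace Ω] {α β : Type} [MeasurableSpace α] [MeasurableSpace β]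
    [Fintype α] [Fintype β] [MeasurableSingletonClass α] [MeasurableSingletonClass β]
    (P : Measure Ω) [IsProbabilityMeasure P] {U : Ω → α} {V : Ω → β} (hU : Measurable U)
    (hV : Measurable V) :
    P.map (fun ω => (U ω, V ω)) ≪ (P.map U).prod (P.map V) := by
  have hUV : Measurable fun ω => (U ω, V ω) := hU.prodMk hV
  have := Measure.isProbabilityMeasure_map (μ := P) hU.aemeasurable
  have := Measure.isProbabilityMeasure_map (μ := P) hV.aemeasurable
  intro s hs
  have h1 : s = ⋃ a ∈ s, {a} := by simp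
  rw [h1, measure_biUnion_null_iff s.to_countable]
  rintro ⟨u, v⟩ huv
  have h2 : (P.map U).prod (P.map V) {(u, v)} = 0 :=
    measure_mono_null (Set.singleton_subset_iff.2 huv) hs
  rw [← Set.singleton_prod_singleton, Measure.prod_prod, mul_eq_zero] at h2
  rw [Measure.map_apply hUV (measurableSet_singleton _)]
  rcases h2 with h2 | h2
  · rw [Measure.map_apply hU (measurableSet_singleton _)] at h2
    refine measure_mono_null ?_ h2
    intro ω hω
    have h3 : (U ω, V ω) = (u, v) := hω
    exact (Prod.mk.injEq _ _ _ _ ▸ h3).1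
  · rw [Measure.map_apply hV (measurableSet_singleton _)] at h2
    refine measure_mono_null ?_ h2
    intro ω hω
    have h3 : (U ω, V ω) = (u, v) := hω
    exact (Prod.mk.injEq _ _ _ _ ▸ h3).2

theorem msc_units : MeasurableSingletonClass ℤˣ := by
  refine ⟨fun a => ⟨{(a : ℤ)}, measurableSet_singleton _, ?_⟩⟩
  ext x
  simp [Units.ext_iff]

theorem law_point {Ω : Type*} [MeasurableSpace Ω] (P : Measure Ω) [IsProbabilityMeasure P] {n : ℕ}
    {ε : ℝ} {X Z : Fin n → Ω → ℤˣ} (hX : ∀ i, Measurable (X i)) (hZ : ∀ i, Measurable (Z i))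
    (hind : iIndepFun (β := fun _ => ℤˣ) (Sum.elim X Z) P)
    (hX1 : ∀ i, P.real {ω | X i ω = 1} = 1 / 2) (hZ1 : ∀ i, P.real {ω | Z i ω = -1} = ε)
    (x z : Fin n → ℤˣ) :
    P.real {ω | (∀ i, X i ω = x i) ∧ ∀ i, Z i ω = z i} = pXZ n ε (x, z) := by
  have := msc_units
  have hmeas : ∀ j, Measurable (Sum.elim X Z j) := by
    rintro (i | i)
    · exact hX i
    · exact hZ i
  have h1 := hind.measure_inter_preimage_eq_mul (S := Finset.univ)
    (sets := fun j => {Sum.elim x z j}) (fun j _ => measurableSet_singleton _)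
  have h2 : (⋂ j ∈ Finset.univ, Sum.elim X Z j ⁻¹' {Sum.elim x z j}) =
      {ω | (∀ i, X i ω = x i) ∧ ∀ i, Z i ω = z i} := by
    ext ω
    simp
  rw [h2] at h1
  have hu : ∀ a : ℤˣ, a = 1 ∨ a = -1 := Int.units_eq_one_or
  have hcompl : ∀ (W : Ω → ℤˣ), Measurable W → P.real {ω | W ω = 1} = 1 - P.real {ω | W ω = -1} := by
    intro W hW
    have h3 : {ω | W ω = 1} = {ω | W ω = -1}ᶜ := by
      ext ω
      rcases hu (W ω) with h | h <;> simp [h]
    have h4 : MeasurableSet {ω | W ω = -1} := hW (measurableSet_singleton (-1 : ℤˣ))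
    rw [h3, probReal_compl_eq_one_sub h4]
  unfold Measure.real
  rw [h1, ENNReal.toReal_prod, Fintype.prod_sum_type]
  unfold pXZ
  congr 1
  · have h4 : ∀ i, (P (Sum.elim X Z (Sum.inl i) ⁻¹' {Sum.elim x z (Sum.inl i)})).toReal = 1 / 2 := by
      intro i
      change P.real {ω | X i ω = x i} = 1 / 2
      rcases hu (x i) with h | h
      · rw [h, hX1]
      · rw [h]
        have h5 := hcompl (X i) (hX i)
        rw [hX1] at h5
        linarith
    simp only [h4]
    simp
  · refine Finset.prod_congr rfl fun i _ => ?_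
    change P.real {ω | Z i ω = z i} = _
    change P.real {ω | Z i ω = z i} = if z i = -1 then ε else 1 - ε
    rcases hu (z i) with h | h
    · have h6 : ¬ (1 : ℤˣ) = -1 := by decide
      rw [h, if_neg h6, hcompl (Z i) (hZ i), hZ1]
    · rw [h, if_pos rfl, hZ1]

theorem law {Ω : Type*} [MeasurableSpace Ω] (P : Measure Ω) [IsProbabilityMeasure P] {n : ℕ}
    {ε : ℝ} {X Z : Fin n → Ω → ℤˣ} (hX : ∀ i, Measurable (X i)) (hZ : ∀ i, Measurable (Z i))
    (hind : iIndepFun (β := fun _ => ℤˣ) (Sum.elim X Z) P)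
    (hX1 : ∀ i, P.real {ω | X i ω = 1} = 1 / 2) (hZ1 : ∀ i, P.real {ω | Z i ω = -1} = ε)
    (S : Set ((Fin n → ℤˣ) × (Fin n → ℤˣ))) :
    P.real {ω | ((fun i => X i ω), fun i => Z i ω) ∈ S} = prob (pXZ n ε) S := by
  classical
  have := msc_units
  have hT : Measurable fun ω => (((fun i => X i ω), fun i => Z i ω) :
      (Fin n → ℤˣ) × (Fin n → ℤˣ)) :=
    (measurable_pi_lambda _ hX).prodMk (measurable_pi_lambda _ hZ)
  have h1 : {ω | (((fun i => X i ω), fun i => Z i ω) : (Fin n → ℤˣ) × (Fin n → ℤˣ)) ∈ S} =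
      ⋃ w ∈ Finset.univ.filter (· ∈ S), {ω | (∀ i, X i ω = w.1 i) ∧ ∀ i, Z i ω = w.2 i} := by
    ext ω
    simp only [Set.mem_ofPred_eq, Finset.mem_filter, Finset.mem_univ, true_and, Set.mem_iUnion,
      exists_prop]
    constructor
    · intro h
      exact ⟨_, h, fun i => rfl, fun i => rfl⟩
    · rintro ⟨⟨x, z⟩, h, h2, h3⟩
      have e1 : (fun i => X i ω) = x := funext h2
      have e2 : (fun i => Z i ω) = z := funext h3
      rw [e1, e2]
      exact h
  rw [h1, measureReal_biUnion_finset]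
  · unfold prob
    rw [Finset.sum_filter]
    refine Finset.sum_congr rfl fun w _ => ?_
    split_ifs
    · exact law_point P hX hZ hind hX1 hZ1 w.1 w.2
    · rfl
  · rintro ⟨x, z⟩ _ ⟨x', z'⟩ _ hne
    refine Set.disjoint_left.2 ?_
    rintro ω ⟨h2, h3⟩ ⟨h4, h5⟩
    apply hne
    have e1 : x = x' := funext fun i => (h2 i).symm.trans (h4 i)
    have e2 : z = z' := funext fun i => (h3 i).symm.trans (h5 i)
    rw [e1, e2]
  · rintro ⟨x, z⟩ _
    have e1 : {ω | (∀ i, X i ω = x i) ∧ ∀ i, Z i ω = z i} =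
        (fun ω => (((fun i => X i ω), fun i => Z i ω) : (Fin n → ℤˣ) × (Fin n → ℤˣ))) ⁻¹'
          {(x, z)} := by
      ext ω
      simp [funext_iff]
    rw [e1]
    exact hT (measurableSet_singleton _)

theorem mi_eq {Ω : Type*} [MeasurableSpace Ω] (P : Measure Ω) [IsProbabilityMeasure P] {n : ℕ}
    {ε : ℝ} {X Z : Fin n → Ω → ℤˣ} (hX : ∀ i, Measurable (X i)) (hZ : ∀ i, Measurable (Z i))
    (hind : iIndepFun (β := fun _ => ℤˣ) (Sum.elim X Z) P)
    (hX1 : ∀ i, P.real {ω | X i ω = 1} = 1 / 2) (hZ1 : ∀ i, P.real {ω | Z i ω = -1} = ε)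
    (f : (Fin n → ℤˣ) → ℤˣ) :
    klDiv (P.map fun ω => (f (fun i => X i ω), fun i => X i ω * Z i ω))
      ((P.map fun ω => f (fun i => X i ω)).prod (P.map fun ω => fun i => X i ω * Z i ω)) =
      ENNReal.ofReal (Real.log 2 *
        mutualInfo (pXZ n ε) (fun ω => f ω.1) (fun ω => ω.1 * ω.2)) := by
  have := msc_units
  have hT : Measurable fun ω => (fun i => X i ω) := measurable_pi_lambda _ hX
  have hS : Measurable fun ω => (fun i => Z i ω) := measurable_pi_lambda _ hZ
  have hU : Measurable fun ω => f (fun i => X i ω) := (measurable_of_finite f).comp hT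
  have hV : Measurable fun ω => (fun i => X i ω * Z i ω) := by
    have h1 : Measurable fun w : (Fin n → ℤˣ) × (Fin n → ℤˣ) => w.1 * w.2 := measurable_of_finite _
    exact h1.comp (hT.prodMk hS)
  have hUV : Measurable fun ω => (f (fun i => X i ω), fun i => X i ω * Z i ω) := hU.prodMk hV
  have i1 := Measure.isProbabilityMeasure_map (μ := P) hU.aemeasurable
  have i2 := Measure.isProbabilityMeasure_map (μ := P) hV.aemeasurable
  have i3 := Measure.isProbabilityMeasure_map (μ := P) hUV.aemeasurable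
  rw [klDiv_fintype _ _ (ac_pair P hU hV)]
  congr 1
  unfold mutualInfo
  rw [Fintype.sum_prod_type, Finset.mul_sum]
  refine Finset.sum_congr rfl fun u _ => ?_
  rw [Finset.mul_sum]
  refine Finset.sum_congr rfl fun v _ => ?_
  have e1 : (P.map fun ω => (f (fun i => X i ω), fun i => X i ω * Z i ω)).real {(u, v)} =
      prob (pXZ n ε) {ω | f ω.1 = u ∧ ω.1 * ω.2 = v} := by
    rw [map_measureReal_apply hUV (measurableSet_singleton _),
      ← law P hX hZ hind hX1 hZ1 {ω | f ω.1 = u ∧ ω.1 * ω.2 = v}]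
    congr 1
    ext ω
    constructor
    · intro h
      have h3 : (f (fun i => X i ω), fun i => X i ω * Z i ω) = (u, v) := h
      exact ⟨congrArg Prod.fst h3, congrArg Prod.snd h3⟩
    · rintro ⟨h3, h4⟩
      exact Prod.ext h3 h4
  have e2 : (P.map fun ω => f (fun i => X i ω)).real {u} =
      prob (pXZ n ε) {ω | f ω.1 = u} := by
    rw [map_measureReal_apply hU (measurableSet_singleton _),
      ← law P hX hZ hind hX1 hZ1 {ω | f ω.1 = u}]
    rfl
  have e3 : (P.map fun ω => fun i => X i ω * Z i ω).real {v} =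
      prob (pXZ n ε) {ω | ω.1 * ω.2 = v} := by
    rw [map_measureReal_apply hV (measurableSet_singleton _),
      ← law P hX hZ hind hX1 hZ1 {ω | ω.1 * ω.2 = v}]
    rfl
  have e4 : ((P.map fun ω => f (fun i => X i ω)).prod
      (P.map fun ω => fun i => X i ω * Z i ω)).real {(u, v)} =
      prob (pXZ n ε) {ω | f ω.1 = u} * prob (pXZ n ε) {ω | ω.1 * ω.2 = v} := by
    rw [← e2, ← e3, ← Set.singleton_prod_singleton, measureReal_prod_prod]
  rw [e1, e4]
  have hl : Real.log 2 ≠ 0 := (Real.log_pos one_lt_two).ne'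
  unfold Real.logb
  field_simp

theorem h2_eq (ε : ℝ) : Real.log 2 * (1 - h2 ε) = Real.log 2 - Real.binEntropy ε := by
  have hl : Real.log 2 ≠ 0 := (Real.log_pos one_lt_two).ne'
  unfold h2 Real.binEntropy Real.logb
  rw [Real.log_inv, Real.log_inv]
  field_simp
  ring

end P322Ch
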